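import Vale.Agent.P241GH.Ev
import Vale.Agent.P241GR.G

/-!
# P241G, row G2: the shift of an orthogonal spectrum
-/

open CategoryTheory MonoidalCategory Limits OnePoint

noncomputable section

namespace Vale.Agent.P241GH

open Vale.Agent.P251 Vale.Agent.P251.H Vale.Agent.P251CA Vale.Agent.P251CA.CF Vale.Agent.P251CJ
open Vale.Agent.P251CI (q up dn tp dn_up up_dn up_pt dn_act dn_injective up_plot tp_zero tp_homP)
open Vale.Agent.P251CX (OSp o)
open Vale.Agent.P251CR Vale.Agent.P241GR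
open Vale.Agent.P251.St (SHCat Susp)

variable {r : ℕ} {Y Y' : OSp}

theorem act_shift (e : ∀ n, Y'.sp n ≃ₜ Y.sp (r + n)) (h0 : ∀ n, e n (Y'.bp n) = Y.bp _)
    (h1 : ∀ m n (f : P251CX.Emb m n) (h : P251CX.Emb (r + m) (r + n)),
      (∀ s t, P251CX.ap h (Fin.append s t) = Fin.append s (P251CX.ap f t)) →
        ∀ y, e n (Y'.ac f y) = Y.ac h (e m y)) {a b : Sp0} (w : a ⟶ b) (y : Y'.sp a.dim) :
    e b.dim ((o Y').act (tp w) y) = (o Y).act (tp (Sp0.euc r ◁ w)) (e a.dim y) := by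
  rcases Ch.zero_or (cr a) (cr b) w with rfl | ⟨f, rfl⟩
  · rw [Sp0.whiskerLeft_zero, tp_zero, tp_zero]
    exact h0 _
  obtain ⟨i, hi⟩ := exists_ap_id r
  obtain ⟨h, hh⟩ := exists_ap_sum i f
  have e1 : Sp0.euc r ◁ Ch.homP (cr a) (cr b) f =
      Ch.homP (cr (Sp0.euc r ⊗ a)) (cr (Sp0.euc r ⊗ b)) (OnePoint.some h) := by
    rw [← id_tensorHom, ← Ch.homP_id (cr (Sp0.euc r)) hi]
    exact (Ch.homP_sum _ _ _ _ hh).symm
  rw [e1, tp_homP, tp_homP]
  exact h1 _ _ f h (fun s t => (hh s t).trans (congrArg (Fin.append · _) (hi s))) y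

theorem exists_shIso (h : IsShift r Y Y') :
    Nonempty (q.obj (o Y') ≅ (sh (Sp0.euc r)).obj (q.obj (o Y))) := by
  obtain ⟨e, h0, h1⟩ := h
  have h2 := @act_shift r Y Y' e h0 h1
  refine ⟨⟨homMk (fun a x => shi (up (X := o Y) (Sp0.euc r ⊗ a) (e a.dim (dn x))))
    (fun a => (congrArg (up (X := o Y) (Sp0.euc r ⊗ a)) (h0 _)).trans (up_pt _))
    (fun a K x hx => up_plot (X := o Y) (Sp0.euc r ⊗ a) ((e a.dim).continuous.comp hx))
    (fun {a b} w x => ?_),
    homMk (fun a x => up (X := o Y') a ((e a.dim).symm (dn (unshi x))))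
    (fun a => (congrArg (up (X := o Y') a) ((e a.dim).symm_apply_eq.2 (h0 _).symm)).trans
      (up_pt _))
    (fun a K x hx => up_plot (X := o Y') a ((e a.dim).symm.continuous.comp hx))
    (fun {a b} w x => ?_), hom_ext fun a x => ?_, hom_ext fun a x => ?_⟩⟩
  · refine dn_injective (X := o Y) (a := Sp0.euc r ⊗ b) ((dn_up _ _).trans ?_)
    refine Eq.trans ?_ (dn_act (X := o Y) (Sp0.euc r ◁ w) _).symm
    exact ((congrArg (e b.dim) (dn_act w x)).trans (h2 w _)).trans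
      (congrArg _ (dn_up (X := o Y) (Sp0.euc r ⊗ a) _).symm)
  · refine dn_injective ((dn_up _ _).trans ?_)
    refine Eq.trans ?_ ((dn_act w _).trans (congrArg _ (dn_up (X := o Y') a _))).symm
    refine (e b.dim).symm_apply_eq.2 (Eq.trans ?_ (h2 w _).symm)
    exact (dn_act (X := o Y) (Sp0.euc r ◁ w) (unshi x)).trans
      (congrArg _ ((e a.dim).apply_symm_apply _).symm)
  · refine Eq.trans (congrArg (up (X := o Y') a) ?_) (up_dn x)
    exact (e a.dim).symm_apply_eq.2 (dn_up (X := o Y) (Sp0.euc r ⊗ a) _)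
  · refine Eq.trans (congrArg (up (X := o Y) (Sp0.euc r ⊗ a)) ?_) (up_dn (unshi x))
    exact (congrArg (e a.dim) (dn_up (X := o Y') a _)).trans ((e a.dim).apply_symm_apply _)

/-- representables of isomorphic words -/
def repIso {a b : Sp0} (w : a ≅ b) : rep b ≅ rep a :=
  ⟨repMap w.hom, repMap w.inv, by rw [← repMap_comp, w.inv_hom_id, repMap_id],
    by rw [← repMap_comp, w.hom_inv_id, repMap_id]⟩

theorem exists_un (h : IsShift r Y Y') : ∃ (n : ℕ) (e : tpow (StabInput.L : RM P251CV.R) n ⊗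
    (P251CZ.idE P251CV.R).obj (o Y') ⟶ (P251CZ.idE P251CV.R).obj (o Y)), Un e := by
  obtain ⟨φ⟩ := exists_shIso h
  obtain ⟨_, ⟨n, rfl⟩, ⟨w⟩⟩ := P251CP.cf_gpow (Sp0.euc r)
  have h1 := ((un_adj (repAdj (Sp0.euc r)) (q.obj (o Y))).right φ).left
    (repTpow n ≪≫ repIso w)
  exact ⟨n, _, (Un.refl (H := (P251CZ.idE P251CV.R).obj (o Y'))
    (Y := (P251CZ.idE P251CV.R).obj (o Y)) (RM.adj P251CV.R) h1).left
      (tpowIso (RM.r P251CV.R) (rep Sp0.gen) n)⟩

theorem inv_shift {T : P241L.SM} (I : P241L.IsSH T) (h : IsShift r Y Y') :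
    Inv (I.L Y') (I.L Y) := by
  obtain ⟨n, e, he⟩ := exists_un h
  let D := P241CT.midL (P251CZ.br2 P251CV.R P251CE.qd) I
  let N := P251CX.F ⋙ P251CZ.idE P251CV.R
  have i : ∀ X : OSp, I.L X ≅ D.genL.L.obj (N.obj X) := fun X =>
    D.L.mapIso (N.asEquivalence.unitIso.app X)
  exact ((Inv.of_iso (i Y')).trans (inv_pow D.genL n he)).trans (.of_iso (i Y).symm)

/-- **Row G2.** -/
theorem g2 {T : SHCat} {S : Susp T} (I : P241L.IsSH (P241L.fg T S)) : G2 I :=
  fun _ Y Y' h K =>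
    have h1 : Inv (C := T.C) ((LI I).obj Y') ((LI I).obj Y) := inv_shift I h
    (h1.isZero_iff K).symm

end Vale.Agent.P241GH
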