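import Vale.Agent.P241GR.C
import Vale.Agent.P241GH.Main

/-!
# P241G, final assembly, step (2): the powers of the shift
-/

open CategoryTheory MonoidalCategory Limits

noncomputable section

namespace Vale.Agent.P241GH

open P251.St P251CX P241.St P241GX P241GA P241GA.GIn P241GR
open P251.S (IsCpt)

universe v' u u'

section

variable {C : Type u'} [Category.{v'} C]

/-- the powers of an endofunctor -/
def pw (E : C ⥤ C) : ℕ → C ⥤ C
  | 0 => 𝟭 C
  | n + 1 => E ⋙ pw E n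

theorem pw_isEquivalence (E : C ⥤ C) [E.IsEquivalence] : ∀ n, (pw E n).IsEquivalence
  | 0 => inferInstanceAs (𝟭 C).IsEquivalence
  | n + 1 =>
    haveI := pw_isEquivalence E n
    inferInstanceAs (E ⋙ pw E n).IsEquivalence

variable [Preadditive C] [HasCoproducts.{0} C]

theorem additive_of_isEquivalence (E : C ⥤ C) [E.IsEquivalence] : E.Additive :=
  haveI : HasBinaryBiproducts C := HasBinaryBiproducts.of_hasBinaryCoproducts
  Functor.additive_of_preserves_binary_products E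

theorem isCpt_obj (e : C ≌ C) {W : C} (h : IsCpt W) : IsCpt (e.functor.obj W) := fun I X f => by
  have := additive_of_isEquivalence e.functor
  obtain ⟨s, g, hg⟩ := h (fun i => e.inverse.obj (X i))
    (e.unit.app W ≫ e.inverse.map f ≫ inv (sigmaComparison e.inverse X))
  have h1 : e.unit.app W ≫ e.inverse.map f = ∑ i ∈ s, g i ≫ e.inverse.map (Sigma.ι X i) := by
    have := congrArg (· ≫ sigmaComparison e.inverse X) hg
    simpa only [Category.assoc, IsIso.inv_hom_id, Category.comp_id, Preadditive.sum_comp,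
      ι_comp_sigmaComparison] using this
  refine ⟨s, fun i => e.functor.map (g i) ≫ e.counit.app (X i), ?_⟩
  have h2 := congrArg (fun t => e.functor.map t ≫ e.counit.app (∐ X)) h1
  simpa [Functor.map_sum, Preadditive.sum_comp] using h2

theorem sIso_map (E : C ⥤ C) [E.IsEquivalence] (p : ℕ) {B B' : C} (l : B ⟶ B')
    (h : ∀ W, IsCpt W → SIso p W l) (W : C) (hW : IsCpt W) : SIso p W (E.map l) := by
  have := additive_of_isEquivalence E
  obtain ⟨h1, h2⟩ := h _ (isCpt_obj E.asEquivalence.symm hW)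
  let θ : E.obj (E.asEquivalence.symm.functor.obj W) ≅ W := E.asEquivalence.counitIso.app W
  refine ⟨fun y => ?_, fun x hx => ?_⟩
  · obtain ⟨m, x, hm, hx⟩ := h1 (E.preimage (θ.hom ≫ y))
    refine ⟨m, θ.inv ≫ E.map x, hm, ?_⟩
    rw [Category.assoc, ← E.map_comp, hx, Functor.map_nsmul, E.map_preimage,
      Preadditive.comp_nsmul, Iso.inv_hom_id_assoc]
  · obtain ⟨m, hm, hx'⟩ := h2 (E.preimage (θ.hom ≫ x)) (E.map_injective (by
      rw [E.map_comp, E.map_preimage, Category.assoc, hx, comp_zero, E.map_zero]))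
    refine ⟨m, hm, ?_⟩
    have h3 := congrArg (fun t => θ.inv ≫ E.map t) hx'
    simpa only [Functor.map_nsmul, E.map_preimage, Preadditive.comp_nsmul, Iso.inv_hom_id_assoc,
      E.map_zero, comp_zero] using h3

end

variable {G : Type} [Group G] [Finite G] {M : Type u} [Category.{0} M] [MonoidalCategory M]
  [SymmetricCategory M] [MonoidalClosed M] [HasZeroMorphisms M] [HasColimitsOfSize.{0, 0} M]
  [GIn G M] {C : Type u'} [Category.{v'} C] {Q : M ⥤ C}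

/-- `E^N` cancels `F^N` -/
def tfPw {E : C ⥤ C} (b : tensorLeft (F : M) ⋙ Q ⋙ E ≅ Q) :
    ∀ N, TF M N ⋙ Q ⋙ pw E N ≅ JG M ⋙ Q
  | 0 => Iso.refl _
  | N + 1 => (Functor.isoWhiskerLeft (TF M N) (Functor.isoWhiskerRight b (pw E N)) :
      TF M N ⋙ (tensorLeft (F : M) ⋙ Q ⋙ E) ⋙ pw E N ≅ _) ≪≫ tfPw b N

theorem isZero_pw [Q.EssSurj] {E : C ⥤ C} (a : ihom (F : M) ⋙ Q ≅ Q ⋙ E)
    {o : M ⥤ Action OSp G} (D : Dict o) (p4 : P4 G) {V : Subgroup G} (P : PhiF V) {T : SHCat}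
    {S : Susp T} (I : P241L.IsSH (P241L.fg T S)) (K : T.C) (Ψ : C ⥤ T.C)
    (hΨ : ∀ X : M, Nonempty (Ψ.obj (Q.obj X) ≅ K ⊗ (LI I).obj (P.Φ.obj (o.obj X)))) :
    ∀ (N : ℕ) (B : C), IsZero (Ψ.obj ((pw E N).obj B)) ↔ IsZero (Ψ.obj B)
  | 0, _ => Iff.rfl
  | N + 1, B => by
    refine (isZero_pw a D p4 P I K Ψ hΨ N (E.obj B)).trans ?_
    obtain ⟨X, ⟨e⟩⟩ := Functor.EssSurj.mem_essImage Q B
    obtain ⟨u⟩ := hΨ X
    obtain ⟨u'⟩ := hΨ ((ihom (F : M)).obj X)
    have h := g2 I _ _ _ (p4 V _ _ _ _ (D.sh X) ⟨_, P.ok _⟩ ⟨_, P.ok _⟩) K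
    exact ((Ψ.mapIso ((E.mapIso e).symm ≪≫ (a.app X).symm) ≪≫ u').isZero_iff.trans h.symm).trans
      (u.symm ≪≫ Ψ.mapIso e).isZero_iff

/-- **Step (2) of the final assembly.** -/
theorem en [Q.EssSurj] [Preadditive C] [HasCoproducts.{0} C] (c2 : C2 Q) :
    ∃ E : ℕ → C ⥤ C, (∀ N, Nonempty (TF M N ⋙ Q ⋙ E N ≅ JG M ⋙ Q)) ∧
      (∀ N, (E N).IsEquivalence) ∧ (∀ N, (E N).Additive) ∧
      (∀ (N p : ℕ) (B B' : C) (l : B ⟶ B'), (∀ W, IsCpt W → SIso p W l) →
        ∀ W, IsCpt W → SIso p W ((E N).map l)) ∧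
      ∀ (o : M ⥤ Action OSp G) (_ : Dict o) (_ : P4 G) (V : Subgroup G) (P : PhiF V) (T : SHCat)
        (S : Susp T) (I : P241L.IsSH (P241L.fg T S)) (K : T.C) (Ψ : C ⥤ T.C),
        (∀ X : M, Nonempty (Ψ.obj (Q.obj X) ≅ K ⊗ (LI I).obj (P.Φ.obj (o.obj X)))) →
          ∀ (N : ℕ) (B : C), IsZero (Ψ.obj ((E N).obj B)) ↔ IsZero (Ψ.obj B) := by
  obtain ⟨E, hE, ⟨a⟩, ⟨b⟩⟩ := c2
  refine ⟨pw E, fun N => ⟨tfPw b N⟩, pw_isEquivalence E, fun N => ?_, fun N p B B' l h => ?_,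
    fun o D p4 V P T S I K Ψ hΨ => isZero_pw a D p4 P I K Ψ hΨ⟩
  · have := pw_isEquivalence E N
    exact additive_of_isEquivalence _
  · have := pw_isEquivalence E N
    exact sIso_map _ p l h

end Vale.Agent.P241GH
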