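import Vale.Agent.P241CT.Lax

/-!
# P241G, row G2: the evaluation of an internal hom out of a power of `L` is stably invertible
-/

open CategoryTheory MonoidalCategory Limits
open Functor.LaxMonoidal Functor.OplaxMonoidal

namespace Vale.Agent.P241GH

open Vale.Agent.P251 Vale.Agent.P251.H Vale.Agent.P251.H.StabInput Vale.Agent.P251CM
open Vale.Agent.P241L (SM)
open Vale.Agent.P241CT (GenL)

section Un

variable {K : Type*} [Category* K] [MonoidalCategory K] {A A' H H' Y : K}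

/-- `e` exhibits `H` as the internal hom from `A` to `Y`. -/
def Un (e : A ⊗ H ⟶ Y) : Prop := ∀ Z, Function.Bijective fun x : Z ⟶ H => A ◁ x ≫ e

theorem Un.left {e : A ⊗ H ⟶ Y} (h : Un e) (φ : A' ≅ A) : Un (φ.hom ▷ H ≫ e) := fun Z => by
  have h1 := (P251CR.bij_pre (φ.hom ▷ Z) Y).comp (h Z)
  refine (congrArg Function.Bijective (funext fun x => ?_)).mp h1
  exact (whisker_exchange_assoc φ.hom x e).symm

theorem Un.right {e : A ⊗ H ⟶ Y} (h : Un e) (φ : H' ≅ H) : Un (A ◁ φ.hom ≫ e) := fun Z => by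
  have h1 := (h Z).comp (P251CR.bij_post φ.hom Z)
  refine (congrArg Function.Bijective (funext fun x => ?_)).mp h1
  exact whiskerLeft_comp_assoc A x φ.hom e

theorem un_adj {R : K ⥤ K} (a : tensorLeft A ⊣ R) (Y : K) : Un (a.counit.app Y) := fun Z => by
  refine (congrArg Function.Bijective (funext fun x => ?_)).mp (a.homEquiv Z Y).symm.bijective
  exact a.homEquiv_counit Z Y x

theorem Un.isIso {e : 𝟙_ K ⊗ H ⟶ Y} (h : Un e) : IsIso ((λ_ H).inv ≫ e) := by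
  refine isIso_of_yoneda_map_bijective _ fun Z => ?_
  have h1 := (P251CR.bij_pre (λ_ Z).inv Y).comp (h Z)
  refine (congrArg Function.Bijective (funext fun x => ?_)).mp h1
  exact (leftUnitor_inv_naturality_assoc x e).symm

theorem Un.step {B P : K} {e : (A ⊗ B) ⊗ H ⟶ Y} (h : Un e) {v : A ⊗ P ⟶ Y} (hv : Un v) :
    ∃ e' : B ⊗ H ⟶ P, Un e' := by
  obtain ⟨e', he⟩ := (hv (B ⊗ H)).2 ((α_ A B H).inv ≫ e)
  refine ⟨e', fun Z => (Function.Bijective.of_comp_iff' (hv (B ⊗ Z)) _).1 ?_⟩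
  have h1 := (P251CR.bij_pre (α_ A B Z).inv Y).comp (h Z)
  refine (congrArg Function.Bijective (funext fun x => ?_)).mp h1
  change (α_ A B Z).inv ≫ (A ⊗ B) ◁ x ≫ e = A ◁ (B ◁ x ≫ e') ≫ v
  have he' : A ◁ e' ≫ v = (α_ A B H).inv ≫ e := he
  rw [whiskerLeft_comp_assoc, he', associator_inv_naturality_right_assoc]

theorem Un.refl {C : Type*} [Category* C] [MonoidalCategory C] {r : C ⥤ K} {q : K ⥤ C}
    (a : r ⊣ q) [r.Monoidal] [q.Full] [q.Faithful] {B : C} {e : B ⊗ q.obj H ⟶ q.obj Y}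
    (h : Un e) : Un (r.obj B ◁ inv (a.counit.app H) ≫ μ r B (q.obj H) ≫
      (a.homEquiv _ Y).symm e) := fun Z => by
  have h0 : Function.Bijective fun x : Z ⟶ H => q.map x := ⟨q.map_injective, q.map_surjective⟩
  have h1 := (P251CR.bij_pre (r.obj B ◁ inv (a.counit.app Z) ≫ μ r B (q.obj Z)) Y).comp
    ((a.homEquiv _ Y).symm.bijective.comp ((h (q.obj Z)).comp h0))
  refine (congrArg Function.Bijective (funext fun x => ?_)).mp h1
  have e1 : inv (a.counit.app Z) ≫ r.map (q.map x) = x ≫ inv (a.counit.app H) := by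
    rw [IsIso.inv_comp_eq, ← Category.assoc, IsIso.eq_comp_inv]
    exact a.counit.naturality x
  change (r.obj B ◁ inv (a.counit.app Z) ≫ μ r B (q.obj Z)) ≫
    (a.homEquiv _ Y).symm (B ◁ q.map x ≫ e) = _
  rw [a.homEquiv_naturality_left_symm, Category.assoc, ← μ_natural_right_assoc,
    ← whiskerLeft_comp_assoc, e1, whiskerLeft_comp_assoc]
  rfl

variable [SymmetricCategory K] (D : StabObj K)

theorem isIso_theta (Z : K) (k : ℕ) (A : K) : IsIso ((D.left Z).Θ k A) := by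
  induction k with
  | zero => exact inferInstanceAs (IsIso (𝟙 _))
  | succ k ih =>
    rw [CoPtMap.Θ_succ]
    have : IsIso ((D.left Z).θ (D.coPt.pw k A)) := inferInstanceAs (IsIso (_ ≫ _ ≫ _))
    infer_instance

theorem Un.bij_left {e : A ⊗ H ⟶ Y} (h : Un e) (B : K) :
    Function.Bijective (D.coPt.map (A ⊗ B) e ∘ (D.left A).pi B H) := by
  constructor
  · intro x x' hx
    obtain ⟨k, x, x', rfl, rfl⟩ := CoPt.cl_surj₂ x x'
    obtain ⟨m, hm, e1⟩ := (CoPt.cl_eq_iff' (P := D.coPt) (A := A ⊗ B)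
      (((D.left A).Θ k B ≫ A ◁ x) ≫ e) (((D.left A).Θ k B ≫ A ◁ x') ≫ e)).1 hx
    have := isIso_theta D A m B
    have e2 := (D.left A).Θ_tr hm B
    refine (CoPt.cl_eq_iff' x x').2 ⟨m, hm, (h _).1 ((cancel_epi ((D.left A).Θ m B)).1 ?_)⟩
    have e3 : ∀ y : D.coPt.pw k B ⟶ H, (D.left A).Θ m B ≫ A ◁ (D.coPt.tr hm B ≫ y) ≫ e =
        D.coPt.tr hm (A ⊗ B) ≫ ((D.left A).Θ k B ≫ A ◁ y) ≫ e := fun y => by
      rw [whiskerLeft_comp_assoc, Category.assoc]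
      exact (Category.assoc _ _ _).symm.trans ((congrArg (· ≫ A ◁ y ≫ e) e2).trans
        (Category.assoc _ _ _))
    exact (e3 x).trans (e1.trans (e3 x').symm)
  · intro y
    obtain ⟨k, y, rfl⟩ := CoPt.cl_surj y
    have := isIso_theta D A k B
    obtain ⟨x, hx⟩ := (h _).2 (inv ((D.left A).Θ k B) ≫ y)
    refine ⟨D.coPt.cl k x, congrArg (D.coPt.cl k) ?_⟩
    exact (Category.assoc _ _ _).trans ((congrArg (_ ≫ ·) hx).trans (IsIso.hom_inv_id_assoc _ _))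

theorem Un.bij_map {e : D.L ⊗ H ⟶ Y} (h : Un e) (B : K) :
    Function.Bijective (D.coPt.map B e) := by
  let a : D.L ⊗ (D.S ⊗ B) ⟶ B := (α_ D.L D.S B).inv ≫ D.lam ▷ B ≫ (λ_ B).hom
  have ha (X : K) : Function.Bijective (D.coPt.comap a X) :=
    D.coPt.bijective_comap_comp _ _ _ (D.coPt.bijective_comap_of_isIso _ _)
      (D.bijective_comap_t B X)
  rw [← D.bijective_map_comap a ha]
  exact (Function.Bijective.of_comp_iff _ (D.bijective_left_L _ H)).1 (h.bij_left D _)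

end Un

variable {M : Type 1} [Category.{0} M] [MonoidalCategory M] [SymmetricCategory M]
    [MonoidalClosed M] [HasZeroMorphisms M] [HasColimitsOfSize.{0, 0} M] [StabInput M]

theorem Un.proj {A H Y : M} {e : A ⊗ H ⟶ Y} (h : Un e) :
    Un (K := HM M) (A := ⟨A⟩) (H := ⟨H⟩) (Y := ⟨Y⟩) ((HM.proj M).map e) := fun Z => by
  constructor
  · intro x x' hx
    obtain ⟨x, rfl⟩ := HM.proj_map_surjective x
    obtain ⟨x', rfl⟩ := HM.proj_map_surjective x'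
    obtain ⟨G, h0, h1⟩ := (HM.proj_map_eq_iff (A ◁ x ≫ e) (A ◁ x' ≫ e)).1 hx
    obtain ⟨G', hG⟩ := (h (Z.obj ⊗ I M)).2 ((α_ _ _ _).inv ≫ G)
    have hG' : A ◁ G' ≫ e = (α_ _ _ _).inv ≫ G := hG
    have e1 : ∀ t, A ◁ (inc t Z.obj ≫ G') ≫ e = inc t (A ⊗ Z.obj) ≫ G := fun t => by
      rw [whiskerLeft_comp_assoc, hG', ← inc_tensor, Category.assoc, Iso.hom_inv_id_assoc]
    exact HM.sound ⟨G', (h _).1 ((e1 0).trans h0), (h _).1 ((e1 1).trans h1)⟩
  · intro y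
    obtain ⟨y, rfl⟩ := HM.proj_map_surjective y
    obtain ⟨x, hx⟩ := (h Z.obj).2 y
    exact ⟨(HM.proj M).map x, congrArg (HM.proj M).map hx⟩

theorem Un.piW {H Y : M} {e : (L : M) ⊗ H ⟶ Y} (h : Un e) (GG : ObjectProperty M) :
    piW GG e := fun A _ => h.proj.bij_map (stab M) A

variable {T : SM} (D : GenL M T)

/-- `A` and `B` differ by an invertible factor -/
def Inv {C : Type*} [Category* C] [MonoidalCategory C] (A B : C) : Prop :=
  ∃ U V : C, Nonempty (U ⊗ V ≅ 𝟙_ C) ∧ Nonempty (A ⊗ U ≅ B)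

theorem Inv.trans {C : Type*} [Category* C] [MonoidalCategory C] {A B E : C} (h : Inv A B)
    (h' : Inv B E) : Inv A E := by
  obtain ⟨U, V, ⟨a⟩, ⟨b⟩⟩ := h
  obtain ⟨U', V', ⟨a'⟩, ⟨b'⟩⟩ := h'
  exact ⟨U ⊗ U', V' ⊗ V, ⟨α_ _ _ _ ≪≫ whiskerLeftIso U ((α_ _ _ _).symm ≪≫
    whiskerRightIso a' V ≪≫ λ_ V) ≪≫ a⟩, ⟨(α_ _ _ _).symm ≪≫ whiskerRightIso b U' ≪≫ b'⟩⟩

theorem Inv.of_iso {C : Type*} [Category* C] [MonoidalCategory C] {A B : C} (e : A ≅ B) :
    Inv A B := ⟨𝟙_ C, 𝟙_ C, ⟨λ_ _⟩, ⟨ρ_ A ≪≫ e⟩⟩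

theorem inv_one {H Y : M} {e : (L : M) ⊗ H ⟶ Y} (h : Un e) : Inv (D.L.obj H) (D.L.obj Y) := by
  have := D.loc
  have := D.mu_iso (L : M) (S M) (flatInput (WW M)).flat_S
  have := D.mu_iso H (L : M) (flatInput (WW M)).flat_L
  have := D.isIso_e0
  have := Localization.inverts D.L (WW M) _ (piW_lam_unit (GG M))
  have := Localization.inverts D.L (WW M) e (h.piW _)
  exact ⟨D.L.obj L, D.L.obj (S M), ⟨asIso (D.mu (L : M) (S M)) ≪≫ asIso (D.L.map lam) ≪≫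
    (asIso D.e0).symm⟩, ⟨asIso (D.mu H (L : M)) ≪≫ D.L.mapIso (β_ _ _) ≪≫ asIso (D.L.map e)⟩⟩

theorem inv_pow (r : ℕ) : ∀ {H Y : M} {e : tpow (L : M) r ⊗ H ⟶ Y}, Un e →
    Inv (D.L.obj H) (D.L.obj Y) := by
  induction r with
  | zero =>
    intro H Y e h
    have := h.isIso
    exact .of_iso (D.L.mapIso (asIso ((λ_ H).inv ≫ e)))
  | succ r ih =>
    intro H Y e h
    have hv := un_adj (ihom.adjunction (L : M)) Y
    obtain ⟨e', he⟩ := Un.step (A := L) (B := tpow L r) h hv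
    exact (ih he).trans (inv_one D hv)

theorem Inv.isZero_iff {C : Type*} [Category* C] [Preadditive C] [MonoidalCategory C]
    [MonoidalPreadditive C] {A B : C} (h : Inv A B) (K : C) :
    IsZero (K ⊗ A) ↔ IsZero (K ⊗ B) := by
  obtain ⟨U, V, ⟨a⟩, ⟨b⟩⟩ := h
  have z : ∀ X Y : C, IsZero X → IsZero (X ⊗ Y) := fun X Y hX => by
    rw [IsZero.iff_id_eq_zero] at hX ⊢
    rw [← id_whiskerRight, hX, MonoidalPreadditive.zero_whiskerRight]
  let i : (K ⊗ A) ⊗ U ≅ K ⊗ B := α_ _ _ _ ≪≫ whiskerLeftIso K b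
  exact ⟨fun h => (z _ U h).of_iso i.symm, fun h => (z _ V (h.of_iso i)).of_iso
    ((ρ_ _).symm ≪≫ whiskerLeftIso _ a.symm ≪≫ (α_ _ _ _).symm)⟩

end Vale.Agent.P241GH
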