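import Vale.Agent.P241GR.C
import Vale.Agent.P241GG.J2
import Vale.Agent.P241GB.Loc

/-!
# P241G, final assembly, step (4), lower half: finite `G`-spaces give compact `p`-local objects
-/

open CategoryTheory MonoidalCategory Limits Pretriangulated

noncomputable section

namespace Vale.Agent.P241GH

open P251.St P251CX P241.St P241GX P241GA P241GA.GIn P241GR
open P251.S (IsCpt)

universe v' u u'

variable {G : Type} [Group G] [Finite G] {M : Type u} [Category.{0} M] [MonoidalCategory M]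
  [SymmetricCategory M] [MonoidalClosed M] [HasZeroMorphisms M] [HasColimitsOfSize.{0, 0} M]
  [GIn G M] {C : Type u'} [Category.{v'} C] {Q : M ⥤ C} [Preadditive C] [HasZeroObject C]
  [HasShift C ℤ] [∀ n : ℤ, (shiftFunctor C n).Additive] [Pretriangulated C] [IsTriangulated C]
  [HasCoproducts.{0} C]

/-- **Step (4), lower half.** -/
theorem lower (c4 : C4 Q) {o : M ⥤ Action OSp G} (D : Dict o) {p : ℕ} (hp : p.Prime)
    (X : GSpace G) (hX : GFC G X) : ∃ A : (PL (C := C) p).FullSubcategory, Cp A ∧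
      ∀ (V : Subgroup G) (P : PhiF V) (T : SHCat) (S : Susp T) (I : P241L.IsSH (P241L.fg T S))
        (K : T.C) (Ψ : C ⥤ T.C),
        (∀ X : M, Nonempty (Ψ.obj (Q.obj X) ≅ K ⊗ (LI I).obj (P.Φ.obj (o.obj X)))) →
        (∀ (B B' : C) (l : B ⟶ B'), (∀ W, IsCpt W → SIso p W l) → IsIso (Ψ.map l)) →
          (IsZero (Ψ.obj A.obj) ↔ IsZero (K ⊗ S.obj (X.fix V))) := by
  obtain ⟨A, l, hA, hl⟩ := P241GB.b2 p hp _ (c4.cpt ⟨0, X, hX, ⟨Iso.refl _⟩⟩)
  refine ⟨A, hA, fun V P T S I K Ψ h1 h2 => ?_⟩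
  obtain ⟨θ, -⟩ := P241GG.j2 D P I
  obtain ⟨u⟩ := h1 ((TF M 0).obj (gl X))
  have := h2 _ _ l hl
  exact ((asIso (Ψ.map l)).symm ≪≫ u ≪≫ whiskerLeftIso K (θ X hX).symm).isZero_iff

end Vale.Agent.P241GH
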