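import Vale.Agent.P241GK.Def
import Vale.Agent.P241GM.Gen
import Vale.Agent.P241GR.D

/-!
# P241G: the internal hom out of the desuspension by a representation is the shift
-/

open CategoryTheory MonoidalCategory Limits OnePoint

noncomputable section

namespace Vale.Agent.P241GH

open P251.H P251CA P251CA.CF P251CJ P241GK P241GR P241GX
open P251.G (LC)
open P251CI (q up dn tp dn_up up_dn up_pt dn_act dn_injective up_plot tp_homP dn_fn fn_up act_eh_up
  app_act)
open P251CA.Sp0 (euc)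

variable {G : Type} [Group G] (A : Action Sp0 G)

/-- the shift along a morphism of words -/
def shM {c c' : Sp0} (u : c ⟶ c') (X : CF) : (sh c).obj X ⟶ (sh c').obj X where
  app b := X.map (u ▷ b)
  naturality w := (X.map_comp _ _).symm.trans
    ((congrArg X.map (whisker_exchange u w)).trans (X.map_comp _ _))

/-- the shift by a representation -/
def shG (X : Action CF G) : Action CF G where
  V := (sh A.V).obj X.V
  ρ :=
    { toFun := fun g => shM (A.ρ g) X.V ≫ (sh A.V).map (X.ρ g)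
      map_one' := hom_ext fun b x => by
        change fn (X.ρ 1) (X.V.act (A.ρ 1 ▷ b) (unshi x)) = unshi x
        rw [A.ρ.map_one, X.ρ.map_one, End.one_def, End.one_def, id_whiskerRight, act_id, fn_id]
      map_mul' := fun g h => hom_ext fun b x => by
        change fn (X.ρ (g * h)) (X.V.act (A.ρ (g * h) ▷ b) (unshi x)) =
          fn (X.ρ g) (X.V.act (A.ρ g ▷ b) (fn (X.ρ h) (X.V.act (A.ρ h ▷ b) (unshi x))))
        rw [A.ρ.map_mul, X.ρ.map_mul, End.mul_def, End.mul_def, comp_whiskerRight, act_comp,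
          fn_comp, fn_act (X.ρ h) (A.ρ g ▷ b)] }

theorem fn_FA (g : G) {Z X : CF} (a : Z ⟶ Z) (f : rep A.V ⊗ Z ⟶ X) {b : Sp0}
    (x : OnePoint (Z.obj b)) : fn ((repMap (A.ρ g⁻¹) ⊗ₘ a) ≫ f) (tm (pr (𝟙 A.V)) x) =
      X.act (A.ρ g⁻¹ ▷ b) (fn f (tm (pr (𝟙 A.V)) (fn a x))) := by
  rw [fn_comp, tensorHom_tm, fn_repMap_pr, Category.comp_id, tm_pr, fn_act]

theorem act_inv (g : G) {X : CF} {b : Sp0} (x : OnePoint (X.obj (A.V ⊗ b))) :
    X.act (A.ρ g⁻¹ ▷ b) (X.act (A.ρ g ▷ b) x) = x := by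
  rw [← act_comp, ← comp_whiskerRight, rho_inv, id_whiskerRight, act_id]

/-- the adjunction bijection -/
def shEquiv (Z X : Action CF G) : ((tensorLeft (FA A)).obj Z ⟶ X) ≃ (Z ⟶ shG A X) where
  toFun f := ⟨repCurry f.hom, fun g => hom_ext fun b x => by
    have h := (fn_FA A g (Z.ρ g) f.hom x).symm.trans
      (congrArg (fun t => fn t (tm (pr (𝟙 A.V)) x)) (f.comm g))
    have h1 := act_inv A g⁻¹ (fn f.hom (tm (pr (𝟙 A.V)) (fn (Z.ρ g) x)))
    rw [inv_inv] at h1
    exact h1.symm.trans ((congrArg (X.V.act (A.ρ g ▷ b)) h).trans (fn_act (X.ρ g) _ _).symm)⟩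
  invFun k := ⟨repDesc (Z := X.V) k.hom, fun g => rep_tensor_ext fun b x => by
    refine (fn_FA A g (Z.ρ g) (repDesc (Z := X.V) k.hom) x).trans ?_
    have h : fn k.hom (fn (Z.ρ g) x) =
        shi (fn (X.ρ g) (X.V.act (A.ρ g ▷ b) (unshi (fn k.hom x)))) :=
      congrArg (fun t => fn t x) (k.comm g)
    refine (congrArg _ ((fn_repDesc_id (Z := X.V) k.hom _).trans (congrArg unshi h))).trans ?_
    refine (congrArg _ (fn_act (X.ρ g) _ _)).trans ((act_inv A g _).trans ?_)
    exact congrArg (fn (X.ρ g)) (fn_repDesc_id (Z := X.V) k.hom x).symm⟩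
  left_inv f := Action.hom_ext _ _ ((repEquiv A.V Z.V X.V).left_inv f.hom)
  right_inv k := Action.hom_ext _ _ ((repEquiv A.V Z.V X.V).right_inv k.hom)

theorem shEquiv_nat (Z' Z X : Action CF G) (f : Z' ⟶ Z) (k : (tensorLeft (FA A)).obj Z ⟶ X) :
    shEquiv A Z' X ((tensorLeft (FA A)).map f ≫ k) = f ≫ shEquiv A Z X k :=
  Action.hom_ext _ _ ((repAdj A.V).homEquiv_naturality_left f.hom k.hom)

theorem exists_shG [Finite G] (X : MG G) :
    Nonempty ((qA G).obj ((ihom ((rA G).obj (FA A))).obj X) ≅ shG A ((qA G).obj X)) := by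
  obtain ⟨e⟩ := P241GM.exists_shIso' (adG G) (FA A) _
    (Adjunction.adjunctionOfEquivRight (shEquiv A) (shEquiv_nat A))
  exact ⟨e.app X⟩

section levels

variable {r : ℕ} {X X' : P251C.OSp} (φ : q.obj X' ≅ (sh (euc r)).obj (q.obj X))

/-- the levels of a shift -/
def lvl (n : ℕ) : X'.sp n ≃ₜ X.sp (r + n) where
  toFun y := dn (X := X) (a := euc r ⊗ euc n) (fn φ.hom (up (euc n) y))
  invFun x := dn (a := euc n) (fn φ.inv (up (X := X) (euc r ⊗ euc n) x))
  left_inv y := (congrArg (fun z => dn (a := euc n) (fn φ.inv z))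
    (up_dn (X := X) (a := euc r ⊗ euc n) _)).trans
      ((congrArg (fun t => dn (a := euc n) (fn t (up (euc n) y))) φ.hom_inv_id).trans
        (dn_up (X := X') (euc n) y))
  right_inv x := (congrArg (fun z => dn (X := X) (a := euc r ⊗ euc n) (fn φ.hom z))
    (up_dn (a := euc n) _)).trans ((congrArg (fun t => dn (X := X) (a := euc r ⊗ euc n)
      (fn t (a := euc n) (up (X := X) (euc r ⊗ euc n) x))) φ.inv_hom_id).trans
        (dn_up (X := X) (euc r ⊗ euc n) x))
  continuous_toFun :=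
    haveI := X'.cg n
    continuous_from_compactlyGeneratedSpace _ fun K _ _ _ _ hx =>
      fn_plot φ.hom (up_plot (euc n) (K := CH.of K) hx)
  continuous_invFun :=
    haveI := X.cg (r + n)
    continuous_from_compactlyGeneratedSpace _ fun K _ _ _ _ hx =>
      fn_plot φ.inv (a := euc n) (up_plot (X := X) (euc r ⊗ euc n) (K := CH.of K) hx)

theorem lvl_pt (n : ℕ) : lvl φ n (X'.pt n) = X.pt (r + n) :=
  (congrArg (fun z => dn (X := X) (a := euc r ⊗ euc n) (fn φ.hom z)) (up_pt (euc n))).trans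
    (congrArg (dn (X := X) (a := euc r ⊗ euc n)) (fn_infty φ.hom _))

theorem tp_sum {m n m' n' : ℕ} {f : JP m m'} {g : JP n n'} {h : JP (m + n) (m' + n')}
    (hh : ∀ s t, ap h (Fin.append s t) = Fin.append (ap f s) (ap g t)) :
    tp (eh (.some f) ⊗ₘ eh (.some g)) = OnePoint.some h :=
  (congrArg tp (Ch.homP_sum _ _ _ _ hh).symm).trans
    (tp_homP (a := euc m ⊗ euc n) (b := euc m' ⊗ euc n') (.some h))

theorem lvl_act {m n : ℕ} (f : JP m n) (h : JP (r + m) (r + n))
    (hh : ∀ s t, ap h (Fin.append s t) = Fin.append s (ap f t)) (y : X'.sp m) :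
    lvl φ n (X'.act (.some f) y) = X.act (.some h) (lvl φ m y) := by
  obtain ⟨i, hi⟩ := exists_ap_id r
  have e1 : tp (euc r ◁ eh (.some f)) = OnePoint.some h := by
    rw [← id_tensorHom, ← Ch.homP_id (Ch.euc r) hi]
    exact tp_sum fun s t => (hh s t).trans (congrArg (Fin.append · _) (hi s).symm)
  refine (congrArg (fun z => dn (X := X) (a := euc r ⊗ euc n) (fn φ.hom z))
    (act_eh_up (.some f) y).symm).trans ?_
  refine (congrArg (dn (X := X) (a := euc r ⊗ euc n)) (fn_act φ.hom _ _)).trans ?_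
  exact (dn_act (X := X) (euc r ◁ eh (.some f)) _).trans (congrArg (X.act · _) e1)

theorem lvl_map {n : ℕ} (a : X ⟶ X) (a' : X' ⟶ X') (f : JP r r) (h : JP (r + n) (r + n))
    (hh : ∀ s t, ap h (Fin.append s t) = Fin.append (ap f s) t)
    (e : q.map a' ≫ φ.hom = φ.hom ≫ shM (eh (.some f)) _ ≫ (sh (euc r)).map (q.map a))
    (y : X'.sp n) : lvl φ n (a'.app n y) = X.act (.some h) (a.app _ (lvl φ n y)) := by
  obtain ⟨i, hi⟩ := exists_ap_id n
  have e1 : tp (eh (.some f) ▷ euc n) = OnePoint.some h := by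
    rw [← tensorHom_id, ← Ch.homP_id (Ch.euc n) hi]
    exact tp_sum fun s t => (hh s t).trans (congrArg (Fin.append _) (hi t).symm)
  refine (congrArg (fun z => dn (X := X) (a := euc r ⊗ euc n) (fn φ.hom z))
    (fn_up a' (euc n) y).symm).trans ?_
  refine (congrArg (fun t : q.obj X' ⟶ (sh (euc r)).obj (q.obj X) =>
    dn (X := X) (a := euc r ⊗ euc n) (fn t (up (euc n) y))) e).trans ?_
  refine (dn_fn a (a := euc r ⊗ euc n) _).trans (Eq.trans (congrArg (a.app _) ?_) (app_act a _ _))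
  exact (dn_act (X := X) (eh (.some f) ▷ euc n) _).trans (congrArg (X.act · _) e1)

end levels

/-- **The field `sh` of the dictionary.** -/
theorem sh (G : Type) [Group G] [Finite G] : Sh G := fun X => by
  obtain ⟨φ⟩ := exists_shG (AG G 1) X
  let ψ : q.obj _ ≅ (CF.sh (euc (Nat.card G * 1))).obj (q.obj X.V) :=
    (Action.forget CF G).mapIso φ
  refine ⟨lvl ψ, lvl_pt ψ, fun m n f h hh y => lvl_act ψ f h hh y, fun n g h hh y => ?_⟩
  refine lvl_map ψ (X.ρ g) _ (P241GP.act g 1) h (fun s t => ?_) (φ.hom.comm g) y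
  obtain ⟨s, rfl⟩ := P241GP.cd_surj (G := G) s
  exact (hh s t).trans (congrArg (Fin.append · t) (P241GP.ap_act g s).symm)

end Vale.Agent.P241GH
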